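import Vale.Agent.P224.POS.Psd

/-!
Certificate data: Gram matrices 4,5,6 and their positive semidefiniteness.
-/

namespace Vale.Agent.P224.POS.M10

open Vale.Agent.P224.POS

noncomputable section

/-- Gram matrix of block 4 ((u1-E)*sca00), rows of the lower triangle -/
def G4 : List (List Int) := rowsZ 8796093022208 [
  4488673511104,
  52025329841502675597788736,
  527337496081257280760533958958043720192,
  3335930737685432905796879324596837204717961065655040] 0

/-- witness of block 4 -/
def W4 : List (List Nat) := rowsN 4194304 [
  2394890,
  11039224567374,
  38267180782120765384,
  164265192049791017477653864] 0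

set_option maxRecDepth 100000 in
theorem psd4 : psdChk 2097152 1 395835990 W4 G4 = true := by decide +kernel

/-- Gram matrix of block 5 ((u1-E)*sca10), rows of the lower triangle -/
def G5 : List (List Int) := rowsZ 17179869184 [
  13556614592] 0

/-- witness of block 5 -/
def W5 : List (List Nat) := rowsN 131072 [
  110108] 0

set_option maxRecDepth 100000 in
theorem psd5 : psdChk 65536 1 1490003999 W5 G5 = true := by decide +kernel

/-- Gram matrix of block 6 ((u1-E)*sca11), rows of the lower triangle -/
def G6 : List (List Int) := rowsZ 8589934592 [
  7593647296,
  65228933591652630528] 0

/-- witness of block 6 -/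
def W6 : List (List Nat) := rowsN 131072 [
  101861,
  13351190528] 0

set_option maxRecDepth 100000 in
theorem psd6 : psdChk 65536 1 659735999 W6 G6 = true := by decide +kernel

end

end Vale.Agent.P224.POS.M10
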