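import Vale.Agent.P224.SMH.B10
import Vale.Agent.P224.SH.Chk10
import Vale.Agent.P224.SH.Yser10
import Vale.Agent.P224.POS.EOk2

/-!
The data of the static part in dimension 10.
-/

namespace Vale.Agent.P224.POS.M10

open Set Filter Function Vale.Agent.P224
open Vale.Agent.P224.SMH Vale.Agent.P224.SH
open Vale.Agent.P224.SM2 hiding ker

lemma yl {T : ℝ} (hT : T ∈ Ioo (0 : ℝ) 1) : (1 - T) ^ 4 * SMH.pd 10000 B10.Lyl T ≤ yF 5 (315 / 16) T :=
  y10_low ⟨hT.1.le, hT.2.le⟩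

lemma yu {T : ℝ} (hT : T ∈ Ioo (0 : ℝ) 1) : yF 5 (315 / 16) T ≤ (1 - T) ^ 4 * SMH.pd 10000 B10.Lyu T :=
  y10_up ⟨hT.1.le, hT.2.le⟩

lemma yu0 {T : ℝ} (hT : T ∈ Ioo (0 : ℝ) 1) :
    yF 5 (315 / 16) T ≤ (1 - T) ^ 4 * SMH.pd 1000000 B10.Lyu0 T :=
  y10_up0 ⟨hT.1.le, hT.2.le⟩

/-- the bounds of the coefficient functions -/
theorem bds {y Z e r : ℝ → ℝ} {lam : ℝ} (hc : Cert 10 y Z e r) (hl : CertLim 10 y Z e r lam)
    (hyl : ∀ T ∈ Ioo (0 : ℝ) 1, (1 - T) ^ 4 * SMH.pd 10000 B10.Lyl T ≤ y T)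
    (hyu : ∀ T ∈ Ioo (0 : ℝ) 1, y T ≤ (1 - T) ^ 4 * SMH.pd 10000 B10.Lyu T)
    {T : ℝ} (hT : T ∈ Ioo (0 : ℝ) 1) : SH.Bds BD10 T (y T) (e T) (r T) where
  y := by
    have h := hyl T hT
    have e1 : pv BD10.y T = BD10.N * ((1 - T) ^ 4 * SMH.pd 10000 B10.Lyl T) := by
      simp only [SMH.pd, B10.Lyl, BD10, pv]
      push_cast
      ring
    rw [e1]
    exact mul_le_mul_of_nonneg_left h (Nat.cast_nonneg _)
  el := by
    have h := B10.el hc hl hyl T hT
    have e1 : pv BD10.el T = BD10.N * (T * (1 - T) ^ (4 + 2) * SMH.pd 10000 B10.Lel T) := by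
      simp only [SMH.pd, B10.Lel, BD10, pv]
      push_cast
      ring
    rw [e1]
    exact mul_le_mul_of_nonneg_left h (Nat.cast_nonneg _)
  eu := by
    have h := B10.eu hc hl hyu T hT
    have e1 : pv BD10.eu T = BD10.N * (T * (1 - T) ^ (4 + 2) * SMH.pd 10000 B10.Leu T) := by
      simp only [SMH.pd, B10.Leu, BD10, pv]
      push_cast
      ring
    rw [e1]
    exact mul_le_mul_of_nonneg_left h (Nat.cast_nonneg _)
  rl := by
    have h := B10.rl hc hl hyl T hT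
    have e1 : pv BD10.rl T = BD10.N * ((1 - T) ^ (4 + 2) * SMH.pd 10000 B10.Lrl T) := by
      simp only [SMH.pd, B10.Lrl, BD10, pv]
      push_cast
      ring
    rw [e1]
    exact mul_le_mul_of_nonneg_left h (Nat.cast_nonneg _)
  ru := by
    have h := B10.ru hc hl hyu T hT
    have e1 : pv BD10.ru T = BD10.N * ((1 - T) ^ (4 + 2) * SMH.pd 10000 B10.Lru T) := by
      simp only [SMH.pd, B10.Lru, BD10, pv]
      push_cast
      ring
    rw [e1]
    exact mul_le_mul_of_nonneg_left h (Nat.cast_nonneg _)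

/-- the data of the static part in dimension 10 -/
theorem eok : EOk (2 * 5) (evenRatio 5) (5195 / 10000) HD10 := by
  refine eok_of_expl2 (a := 5) (c := 315 / 16) (by norm_num) (by norm_num) (by norm_num) ?_
    fun lam hc hl => ⟨?_, fun T hT k hk => le_FKK okK10 hT
      (bds hc hl (fun _ h => yl h) (fun _ h => yu h) hT) hk⟩
  · unfold cE
    rw [show (((2 * 5 : ℕ) : ℝ) / 2) = 5 by norm_num, II_five_zero]
    norm_num
  · have h1 := B10.r_zero hc hl fun _ h => yu0 h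
    push_cast
    linarith

end Vale.Agent.P224.POS.M10
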