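import Vale.Agent.P224.POS.M10.Rows
import Vale.Agent.P224.POS.LawNumM
import Mathlib.Analysis.Real.Pi.Bounds

/-!
The numerical law of the certificate in dimension 10.
-/

namespace Vale.Agent.P224.POS.M10

open Vale.Agent.P224.UE

/-- **The numerical law.** -/
theorem hneg {γ : ℝ} (hγ : γ ≤ 5195 / 10000) : ∀ Θ u r : ℝ, 6 / 5 ≤ Θ → Θ < 945 * Real.pi / 2048 → 0 ≤ u →
    Θ ^ 2 * u ≤ 1 → u ^ 2 ≤ r → r ≤ u →
      Θ * (1 + γ * u + (0 + (0 + (-(3342889507 / 1073741824)) + (476082899 / 134217728)) * u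
        + ((-(160559035 / 67108864)) + (31001713 / 67108864)) * r
        + ((-(2843367 / 8388608)) + (19447805 / 33554432)) * u ^ 2
        + 0 * ((u - r) / (2 * ((5 : ℕ) : ℝ) + 1))))
        + (gam 5 5)⁻¹ * rvalM (2 * 5) (rl 16106127360000 rows) u r < 945 * Real.pi / 2048 := by
  intro Θ u r h1 h2 hu hT hr1 hr2
  have p1 := Real.pi_gt_d6
  have p2 := Real.pi_lt_d6
  have hg : (gam 5 5)⁻¹ = 315 / 8 := by norm_num [gam]
  have hr : rvalM (2 * 5) (rl 16106127360000 rows) u r = -(3660071 / 92274688) * u + 104933891 / 1476395008 * r := rval_eq u r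
  rw [hg, hr]
  refine law_negM_S (Cl := 144961 / 100000) (Cu := 72481 / 50000) (γu := 5195 / 10000)
    (φ1 := 315 / 8 * (-(3660071 / 92274688))) (φ2 := 315 / 8 * (104933891 / 1476395008))
    (by linarith) (by linarith) hγ (by norm_num) (by norm_num) (by norm_num) ?_ ?_
    h1 h2 hu hT hr1 hr2 (by ring)
  · intro T hT1 hT2
    exact quintic_neg (by norm_num) (by norm_num) (by norm_num) (by norm_num) (by norm_num)
      (by norm_num) (by norm_num) (le_of_eq rfl) (le_of_eq rfl) (le_of_eq rfl) (le_of_eq rfl)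
      (le_of_eq rfl) (le_of_eq rfl) hT1 hT2
  · intro T hT1 hT2
    exact quintic_neg (by norm_num) (by norm_num) (by norm_num) (by norm_num) (by norm_num)
      (by norm_num) (by norm_num) (le_of_eq rfl) (le_of_eq rfl) (le_of_eq rfl) (le_of_eq rfl)
      (le_of_eq rfl) (le_of_eq rfl) hT1 hT2

end Vale.Agent.P224.POS.M10
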